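import Vale.Agent.P213Z.FinalB

/-- The Ara-Maltsiniotis conjecture for globular strict `n`-categories, Street's orientals and
the weak homotopy equivalences defined by the homotopy groups of the geometric realization. -/
theorem Vale.Agent.Results.P213.ARealization.result (n : ℕ∞) (hn : 1 ≤ n) :
    Vale.Agent.P213Z.G.IsThomason (Vale.Agent.P213Z.G.nerve n) :=
  Vale.Agent.P213Z.G.main n hn
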